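import Vale.Agent.P207Z.Sm.Sk

/-!
# P207, the smooth case: calculus of the mixed derivative
-/

open Set Filter Topology Metric
open scoped ContDiff

noncomputable section

namespace Vale.Agent.P207Z.SC.B1

open Vale.Agent.P207.N4 Vale.Agent.P207.N3

section calc1

variable {E W : Type} [NormedAddCommGroup E] [NormedSpace ℝ E] [NormedAddCommGroup W]
  [NormedSpace ℝ W]

theorem ev_diff {F : E → ℝ} {z : E} (h : ContDiffAt ℝ 2 F z) :
    ∀ᶠ q in 𝓝 z, DifferentiableAt ℝ F q :=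
  (h.eventually (by simp)).mono fun _ hq => hq.differentiableAt (by simp)

theorem diff2 {F : E → ℝ} {z : E} (h : ContDiffAt ℝ 2 F z) : DifferentiableAt ℝ (fderiv ℝ F) z :=
  (h.fderiv_right (m := 1) (by norm_num)).differentiableAt (by simp)

theorem has_gen (i j : W →L[ℝ] E) {F : E → ℝ} {a₀ b₀ : W} (h : ContDiffAt ℝ 2 F (i a₀ + j b₀)) :
    HasFDerivAt (fun b => fderiv ℝ (fun a => F (i a + j b)) a₀)
      ((ContinuousLinearMap.compL ℝ W E ℝ).flip i ∘L fderiv ℝ (fderiv ℝ F) (i a₀ + j b₀) ∘L j)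
      b₀ := by
  have h1 : HasFDerivAt (fun b => i a₀ + j b) j b₀ := j.hasFDerivAt.const_add _
  refine (((ContinuousLinearMap.compL ℝ W E ℝ).flip i).hasFDerivAt.comp b₀
    ((diff2 h).hasFDerivAt.comp b₀ h1)).congr_of_eventuallyEq ?_
  filter_upwards [h1.continuousAt.eventually (ev_diff h)] with b hb
  exact (hb.hasFDerivAt.comp a₀ (i.hasFDerivAt.add_const (j b))).fderiv

variable {F F' : W × W → ℝ} {z : W × W}

theorem has_mix' (h : ContDiffAt ℝ 2 F z) :
    HasFDerivAt (fun b => fderiv ℝ (fun a => F (a, b)) z.1)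
      ((ContinuousLinearMap.compL ℝ W (W × W) ℝ).flip (ContinuousLinearMap.inl ℝ W W) ∘L
        fderiv ℝ (fderiv ℝ F) z ∘L ContinuousLinearMap.inr ℝ W W) z.2 := by
  have h1 := has_gen (ContinuousLinearMap.inl ℝ W W) (ContinuousLinearMap.inr ℝ W W) (F := F)
    (a₀ := z.1) (b₀ := z.2) (by simpa using h)
  simpa using h1

theorem mix_eq (h : ContDiffAt ℝ 2 F z) (w v : W) :
    mix F z w v = fderiv ℝ (fderiv ℝ F) z (0, w) (v, 0) := by
  rw [mix, (has_mix' h).fderiv]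
  rfl

theorem has_mix (h : ContDiffAt ℝ 2 F z) :
    HasFDerivAt (fun b => fderiv ℝ (fun a => F (a, b)) z.1) (mix F z) z.2 :=
  (has_mix' h).differentiableAt.hasFDerivAt

theorem mix_swap (h : ContDiffAt ℝ 2 F z) (w v : W) :
    mix (fun q => F q.swap) z.swap w v = mix F z v w := by
  have h1 := has_gen (ContinuousLinearMap.inr ℝ W W) (ContinuousLinearMap.inl ℝ W W) (F := F)
    (a₀ := z.2) (b₀ := z.1) (by simpa using h)
  have h2 := h1.fderiv
  simp only [ContinuousLinearMap.inr_apply, ContinuousLinearMap.inl_apply, Prod.mk_add_mk,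
    zero_add, add_zero] at h2
  rw [mix_eq h, (h.isSymmSndFDerivAt (by simp)).eq]
  exact congrArg (fun T : W →L[ℝ] W →L[ℝ] ℝ => T w v) h2

/-- the transformation law of the mixed derivative -/
theorem mix_law {τ₁ τ₂ : W → W} {c₁ c₂ : W → ℝ} {A₁ A₂ : W →L[ℝ] W}
    (h : ContDiffAt ℝ 2 F' (τ₁ z.1, τ₂ z.2)) (h1 : HasFDerivAt τ₁ A₁ z.1)
    (h2 : HasFDerivAt τ₂ A₂ z.2) (hc : DifferentiableAt ℝ c₁ z.1)
    (he : ∀ᶠ q in 𝓝 z, F q = F' (τ₁ q.1, τ₂ q.2) + c₁ q.1 + c₂ q.2) (w v : W) :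
    mix F z w v = mix F' (τ₁ z.1, τ₂ z.2) (A₂ w) (A₁ v) := by
  have h3 := (((ContinuousLinearMap.compL ℝ W W ℝ).flip A₁).hasFDerivAt.comp z.2
    ((has_mix h).comp z.2 h2)).add_const (fderiv ℝ c₁ z.1)
  have h4 : (fun b => fderiv ℝ (fun a => F (a, b)) z.1) =ᶠ[𝓝 z.2] fun b =>
      (fderiv ℝ (fun a => F' (a, τ₂ b)) (τ₁ z.1)).comp A₁ + fderiv ℝ c₁ z.1 := by
    have h5 : Tendsto (fun b => (z.1, b)) (𝓝 z.2) (𝓝 z) :=
      (continuous_const.prodMk continuous_id).tendsto z.2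
    have h6 : Tendsto (fun b => (τ₁ z.1, τ₂ b)) (𝓝 z.2) (𝓝 (τ₁ z.1, τ₂ z.2)) :=
      continuousAt_const.prodMk h2.continuousAt
    filter_upwards [h5.eventually he.eventually_nhds, h6.eventually (ev_diff h)] with b k1 k2
    have k3 : Tendsto (fun a => (a, b)) (𝓝 z.1) (𝓝 (z.1, b)) :=
      (continuous_id.prodMk continuous_const).tendsto z.1
    have k4 : DifferentiableAt ℝ (fun a => F' (a, τ₂ b)) (τ₁ z.1) :=
      k2.comp (τ₁ z.1) (differentiableAt_id.prodMk (differentiableAt_const _))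
    exact ((((k4.hasFDerivAt.comp z.1 h1).add hc.hasFDerivAt).add_const
      (c₂ b)).congr_of_eventuallyEq (k3.eventually k1)).fderiv
  rw [mix, (h3.congr_of_eventuallyEq h4).fderiv]
  rfl

theorem d_app {G : E → ℝ} {V : E → E} {z : E} (hG : ContDiffAt ℝ 2 G z)
    (hV : DifferentiableAt ℝ V z) (α : E) : fderiv ℝ (fun q => fderiv ℝ G q (V q)) z α =
      fderiv ℝ (fderiv ℝ G) z α (V z) + fderiv ℝ G z (fderiv ℝ V z α) := by
  rw [fderiv_clm_apply (diff2 hG) hV, add_comm]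
  rfl

theorem d_cst {G : E → ℝ} {z : E} (hG : ContDiffAt ℝ 2 G z) (α β : E) :
    fderiv ℝ (fun q => fderiv ℝ G q β) z α = fderiv ℝ (fderiv ℝ G) z α β := by
  rw [d_app hG (differentiableAt_const β), fderiv_fun_const]
  simp

theorem d_comm {G : E → ℝ} {V : E → E} {z : E} (hG : ContDiffAt ℝ 2 G z)
    (hV : DifferentiableAt ℝ V z) (α : E) : fderiv ℝ (fun q => fderiv ℝ G q (V q)) z α =
      fderiv ℝ (fun q => fderiv ℝ G q α) z (V z) + fderiv ℝ G z (fderiv ℝ V z α) := by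
  rw [d_app hG hV, d_cst hG, (hG.isSymmSndFDerivAt (by simp)).eq]

theorem d12 (h : DifferentiableAt ℝ F z) (v w : W) :
    d1 F z v + d2 F z w = fderiv ℝ F z (v, w) := by
  have h1 := (HasFDerivAt.comp (f := fun a => (a, z.2)) z.1 h.hasFDerivAt
    (hasFDerivAt_prodMk_left z.1 z.2)).fderiv
  have h2 := (HasFDerivAt.comp (f := fun b => (z.1, b)) z.2 h.hasFDerivAt
    (hasFDerivAt_prodMk_right z.1 z.2)).fderiv
  have h3 : d1 F z v = fderiv ℝ F z (v, 0) := congrArg (fun T : W →L[ℝ] ℝ => T v) h1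
  have h4 : d2 F z w = fderiv ℝ F z (0, w) := congrArg (fun T : W →L[ℝ] ℝ => T w) h2
  rw [h3, h4, ← map_add, Prod.mk_add_mk, add_zero, zero_add]

/-- the derivative of the mixed derivative along a Killing field -/
theorem kill_mix {c₁ c₂ : W → W} {f₁ f₂ : W → ℝ} (hF : ContDiffAt ℝ 3 F z)
    (h1 : ContDiffAt ℝ 2 c₁ z.1) (h2 : ContDiffAt ℝ 2 c₂ z.2) (h3 : ContDiffAt ℝ 2 f₁ z.1)
    (h4 : ContDiffAt ℝ 2 f₂ z.2)
    (he : ∀ᶠ q in 𝓝 z, fderiv ℝ F q (c₁ q.1, c₂ q.2) = f₁ q.1 + f₂ q.2) (w v : W) :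
    DifferentiableAt ℝ (fun q => mix F q w v) z ∧
      fderiv ℝ (fun q => mix F q w v) z (c₁ z.1, c₂ z.2) =
        -(mix F z (fderiv ℝ c₂ z.2 w) v + mix F z w (fderiv ℝ c₁ z.1 v)) := by
  have hF2 : ContDiffAt ℝ 2 F z := hF.of_le (by norm_num)
  have k0 : ∀ᶠ q in 𝓝 z, ContDiffAt ℝ 2 F q := hF2.eventually (by simp)
  have hG : ContDiffAt ℝ 2 (fun q => fderiv ℝ F q (v, 0)) z :=
    (hF.fderiv_right (m := 2) (by norm_num)).clm_apply contDiffAt_const
  have k1 : ∀ᶠ q : W × W in 𝓝 z, DifferentiableAt ℝ c₁ q.1 :=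
    continuousAt_fst.eventually
      ((h1.eventually (by simp)).mono fun _ hq => hq.differentiableAt (by simp))
  have k2 : ∀ᶠ q : W × W in 𝓝 z, DifferentiableAt ℝ c₂ q.2 :=
    continuousAt_snd.eventually
      ((h2.eventually (by simp)).mono fun _ hq => hq.differentiableAt (by simp))
  have k3 : ∀ᶠ q : W × W in 𝓝 z, DifferentiableAt ℝ f₁ q.1 :=
    continuousAt_fst.eventually (ev_diff h3)
  have k4 : ∀ᶠ q : W × W in 𝓝 z, DifferentiableAt ℝ f₂ q.2 :=
    continuousAt_snd.eventually (ev_diff h4)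
  have hV : ∀ q : W × W, DifferentiableAt ℝ c₁ q.1 → DifferentiableAt ℝ c₂ q.2 →
      HasFDerivAt (fun q : W × W => (c₁ q.1, c₂ q.2))
        ((fderiv ℝ c₁ q.1).prodMap (fderiv ℝ c₂ q.2)) q := fun q a b =>
    (a.hasFDerivAt.comp q hasFDerivAt_fst).prodMk (b.hasFDerivAt.comp q hasFDerivAt_snd)
  have e1 : (fun q => mix F q w v) =ᶠ[𝓝 z]
      fun q => fderiv ℝ (fun q => fderiv ℝ F q (v, 0)) q (0, w) := by
    filter_upwards [k0] with q hq
    rw [mix_eq hq, d_cst hq]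
  have e2 : (fun q : W × W => fderiv ℝ (fun q => fderiv ℝ F q (v, 0)) q (c₁ q.1, c₂ q.2)) =ᶠ[𝓝 z]
      fun q => fderiv ℝ f₁ q.1 v - fderiv ℝ F q (fderiv ℝ c₁ q.1 v, 0) := by
    filter_upwards [k0, k1, k2, k3, k4, he.eventually_nhds] with q a0 a1 a2 a3 a4 a5
    have b1 := d_comm a0 (hV q a1 a2).differentiableAt (v, 0)
    have b2 := (((a3.hasFDerivAt.comp q hasFDerivAt_fst).add
      (a4.hasFDerivAt.comp q hasFDerivAt_snd)).congr_of_eventuallyEq a5).fderiv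
    rw [b2, (hV q a1 a2).fderiv] at b1
    simp only [add_apply, ContinuousLinearMap.comp_apply,
      ContinuousLinearMap.coe_fst', ContinuousLinearMap.coe_snd', map_zero, add_zero,
      ContinuousLinearMap.coe_prodMap', Prod.map_apply] at b1
    rw [b1, add_sub_cancel_right]
  have hU : DifferentiableAt ℝ (fderiv ℝ c₁) z.1 :=
    (h1.fderiv_right (m := 1) (by norm_num)).differentiableAt (by simp)
  have b1 : HasFDerivAt (fun q : W × W => fderiv ℝ f₁ q.1 v) _ z :=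
    ((diff2 h3).clm_apply (differentiableAt_const v)).hasFDerivAt.comp z hasFDerivAt_fst
  have b2 : HasFDerivAt (fun q : W × W => (fderiv ℝ c₁ q.1 v, (0 : W))) _ z :=
    ((hU.clm_apply (differentiableAt_const v)).hasFDerivAt.comp z hasFDerivAt_fst).prodMk
      (hasFDerivAt_const _ _)
  have b3 := d_comm hG (hV z k1.self_of_nhds k2.self_of_nhds).differentiableAt (0, w)
  rw [e2.fderiv_eq, fderiv_fun_sub b1.differentiableAt ((diff2 hF2).clm_apply b2.differentiableAt),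
    sub_apply, d_app hF2 b2.differentiableAt, b1.fderiv, b2.fderiv,
    (hV z k1.self_of_nhds k2.self_of_nhds).fderiv, ← e1.fderiv_eq, d_cst hF2] at b3
  simp only [ContinuousLinearMap.comp_apply, ContinuousLinearMap.coe_fst', map_zero,
    ContinuousLinearMap.prod_apply, zero_apply, Prod.mk_zero_zero, add_zero,
    ContinuousLinearMap.coe_prodMap', Prod.map_apply] at b3
  refine ⟨((diff2 hG).clm_apply (differentiableAt_const _)).congr_of_eventuallyEq e1, ?_⟩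
  rw [mix_eq hF2, mix_eq hF2]
  linarith

end calc1

section jacobi

variable {n : Type} [Fintype n] [DecidableEq n]

theorem sum_upd (X Y : Matrix n n ℝ) : ∑ σ : Equiv.Perm n, (Equiv.Perm.sign σ : ℤ) •
    ∑ i, (∏ j ∈ Finset.univ.erase i, X (σ j) j) * Y (σ i) i = (X.adjugate * Y).trace := by
  simp only [Finset.smul_sum]
  rw [Finset.sum_comm, Matrix.trace]
  refine Finset.sum_congr rfl fun i _ => ?_
  have h1 : (X.adjugate * Y).diag i = (X.updateCol i (fun j => Y j i)).det := by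
    rw [← Matrix.cramer_apply, Matrix.cramer_eq_adjugate_mulVec]
    rfl
  rw [h1, Matrix.det_apply]
  refine Finset.sum_congr rfl fun σ _ => ?_
  have : ∏ k, (X.updateCol i (fun j => Y j i)) (σ k) k =
      (∏ j ∈ Finset.univ.erase i, X (σ j) j) * Y (σ i) i := by
    rw [← Finset.prod_erase_mul Finset.univ _ (Finset.mem_univ i), Matrix.updateCol_self]
    exact congrArg (· * _) (Finset.prod_congr rfl fun j hj =>
      Matrix.updateCol_ne (Finset.ne_of_mem_erase hj))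
  rw [this]
  rfl

/-- the formula of Jacobi -/
theorem hasDerivAt_det {N : ℝ → Matrix n n ℝ} {N' : Matrix n n ℝ} {t : ℝ}
    (hN : ∀ i j, HasDerivAt (fun s => N s i j) (N' i j) t) :
    HasDerivAt (fun t => (N t).det) ((N t).adjugate * N').trace t := by
  rw [← sum_upd]
  have h1 : ∀ t, (N t).det = ∑ σ : Equiv.Perm n, (Equiv.Perm.sign σ : ℤ) • ∏ i, N t (σ i) i := by
    intro t
    rw [Matrix.det_apply]
    rfl
  simp only [h1]
  refine HasDerivAt.fun_sum fun σ _ => ?_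
  have h2 := HasDerivAt.fun_finsetProd (u := Finset.univ) (x := t)
    (f := fun i t => N t (σ i) i) (f' := fun i => N' (σ i) i) fun i _ => hN (σ i) i
  simp only [smul_eq_mul] at h2
  exact h2.const_smul (Equiv.Perm.sign σ : ℤ)

end jacobi

section mdet

variable [Dim]

/-- the standard basis -/
def bs : Module.Basis (Fin Dim.m) ℝ E2 := (EuclideanSpace.basisFun (Fin Dim.m) ℝ).toBasis

/-- the matrix of a bilinear form -/
def mat (T : E2 →L[ℝ] E2 →L[ℝ] ℝ) : Matrix (Fin Dim.m) (Fin Dim.m) ℝ :=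
  Matrix.of fun i j => T (EuclideanSpace.single i 1) (EuclideanSpace.single j 1)

theorem mat_eq (T : E2 →L[ℝ] E2 →L[ℝ] ℝ) :
    mat T = LinearMap.toMatrix₂ bs bs T.toLinearMap₁₂ := by
  ext i j
  simp [mat, bs, LinearMap.toMatrix₂_apply]

theorem mat_law {T T' : E2 →L[ℝ] E2 →L[ℝ] ℝ} {A₁ A₂ : E2 →L[ℝ] E2}
    (h : ∀ w v, T w v = T' (A₂ w) (A₁ v)) :
    mat T = (LinearMap.toMatrix bs bs (A₂ : E2 →ₗ[ℝ] E2)).transpose * mat T' *
      LinearMap.toMatrix bs bs (A₁ : E2 →ₗ[ℝ] E2) := by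
  rw [mat_eq, mat_eq, ← LinearMap.toMatrix₂_compl₁₂]
  exact congrArg _ (LinearMap.ext₂ h)

theorem mdet_law {T T' : E2 →L[ℝ] E2 →L[ℝ] ℝ} {A₁ A₂ : E2 →L[ℝ] E2}
    (h : ∀ w v, T w v = T' (A₂ w) (A₁ v)) : mdet T = A₂.det * mdet T' * A₁.det := by
  change (mat T).det = _ * (mat T').det * _
  rw [mat_law h, Matrix.det_mul, Matrix.det_mul, Matrix.det_transpose, LinearMap.det_toMatrix,
    LinearMap.det_toMatrix]

theorem mdet_swap {T T' : E2 →L[ℝ] E2 →L[ℝ] ℝ} (h : ∀ w v, T w v = T' v w) :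
    mdet T = mdet T' := by
  rw [mdet, mdet, ← Matrix.det_transpose]
  exact congrArg _ (Matrix.ext fun i j => h _ _)

/-- the derivative of the determinant -/
theorem hasDerivAt_mdet {T : ℝ → E2 →L[ℝ] E2 →L[ℝ] ℝ} {A₁ A₂ : E2 →L[ℝ] E2} {t : ℝ}
    (h : ∀ w v, HasDerivAt (fun s => T s w v) (-(T t (A₂ w) v + T t w (A₁ v))) t) :
    HasDerivAt (fun s => mdet (T s)) (-(LinearMap.trace ℝ E2 (A₁ : E2 →ₗ[ℝ] E2) +
      LinearMap.trace ℝ E2 (A₂ : E2 →ₗ[ℝ] E2)) * mdet (T t)) t := by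
  have h1 := mat_law (T := T t ∘L A₂) (T' := T t) (A₁ := ContinuousLinearMap.id ℝ E2) (A₂ := A₂)
    fun _ _ => rfl
  have h2 := mat_law (T := ((T t).flip ∘L A₁).flip) (T' := T t) (A₁ := A₁)
    (A₂ := ContinuousLinearMap.id ℝ E2) fun _ _ => rfl
  have h3 := hasDerivAt_det (N := fun s => mat (T s))
    (N' := -(mat (T t ∘L A₂) + mat ((T t).flip ∘L A₁).flip)) fun i j => h _ _
  rw [h1, h2, ContinuousLinearMap.coe_id, LinearMap.toMatrix_id, mul_one, Matrix.transpose_one,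
    one_mul, mul_neg, mul_add, Matrix.trace_neg, Matrix.trace_add, Matrix.trace_mul_comm,
    mul_assoc, Matrix.mul_adjugate, ← mul_assoc, Matrix.adjugate_mul, Matrix.mul_smul,
    Matrix.smul_mul, mul_one, one_mul, Matrix.trace_smul, Matrix.trace_smul,
    Matrix.trace_transpose, ← LinearMap.trace_eq_matrix_trace,
    ← LinearMap.trace_eq_matrix_trace] at h3
  refine h3.congr_deriv ?_
  change -((mdet (T t)) * _ + (mdet (T t)) * _) = _
  ring

end mdet

end Vale.Agent.P207Z.SC.B1
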